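import Vale.Agent.Helper13.SwitchChain

/-!
# Switch-connectivity of the realizations of a degree vector (general simple graphs)

Any two simple graphs on `Fin n` with the same degree vector are joined by a sequence of
switches.  Consequently a function on the realizations of `d` which takes equal values at
any two graphs differing by one switch is constant.
-/

open Finset

namespace Vale.Agent.Helper27.KTVConn

open Vale.Agent.Helper13.Switch
open Classical

variable {n : ℕ}

theorem isSwitch_symm {G G' : SimpleGraph (Fin n)} (h : IsSwitch G G') : IsSwitch G' G := by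
  obtain ⟨a, b, c, d, hab, hac, had, hbc, hbd, hcd, hal, rfl⟩ := h
  obtain ⟨h1, h2⟩ := switch_back hal hab hac had hbc hbd hcd
  exact ⟨a, c, b, d, hac, hab, had, hbc.symm, hcd, hbd, h1, h2.symm⟩

theorem isSwitch_degree {G G' : SimpleGraph (Fin n)} (h : IsSwitch G G') (x : Fin n) :
    G'.degree x = G.degree x := by
  obtain ⟨a, b, c, d, hab, hac, had, hbc, hbd, hcd, hal, rfl⟩ := h
  exact degree_switch hal hab hac had hbc hbd hcd x

/-- adjacency at the first vertex of a switch -/
theorem switch_adj_first {G : SimpleGraph (Fin n)} {v b a c : Fin n} (hvb : v ≠ b) (hva : v ≠ a)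
    (hvc : v ≠ c) (x : Fin n) :
    (switchGraph G v b a c).Adj v x ↔ (G.Adj v x ∧ x ≠ b) ∨ x = a := by
  rw [switchGraph_adj]
  constructor
  · rintro (⟨h, h1, -⟩ | ⟨h, hne⟩)
    · left; exact ⟨h, fun hx => h1 (Or.inl ⟨rfl, hx⟩)⟩
    · rcases h with (⟨-, h⟩ | ⟨h, -⟩) | (⟨h, -⟩ | ⟨h, -⟩)
      · right; exact h
      · exact absurd h hva
      · exact absurd h hvb
      · exact absurd h hvc
  · rintro (⟨h, hx⟩ | hxa)
    · left
      refine ⟨h, ?_, ?_⟩
      · rintro (⟨-, h'⟩ | ⟨h', -⟩)
        · exact hx h'
        · exact hvb h'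
      · rintro (⟨h', -⟩ | ⟨h', -⟩)
        · exact hva h'
        · exact hvc h'
    · right; exact ⟨Or.inl (Or.inl ⟨rfl, hxa⟩), fun h => hva (h.trans hxa)⟩

/-- a switch does not change the adjacencies of a vertex outside the four switched ones -/
theorem switch_adj_off {G : SimpleGraph (Fin n)} {p q r s w : Fin n} (hp : w ≠ p) (hq : w ≠ q)
    (hr : w ≠ r) (hs : w ≠ s) (x : Fin n) :
    (switchGraph G p q r s).Adj w x ↔ G.Adj w x := by
  rw [switchGraph_adj]
  constructor
  · rintro (⟨h, -, -⟩ | ⟨h, -⟩)
    · exact h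
    · rcases h with (⟨h, -⟩ | ⟨h, -⟩) | (⟨h, -⟩ | ⟨h, -⟩)
      · exact absurd h hp
      · exact absurd h hr
      · exact absurd h hq
      · exact absurd h hs
  · intro h
    left
    refine ⟨h, ?_, ?_⟩
    · rintro (⟨h', -⟩ | ⟨h', -⟩)
      · exact hp h'
      · exact hq h'
    · rintro (⟨h', -⟩ | ⟨h', -⟩)
      · exact hr h'
      · exact hs h'

/-- the neighbours of `x` outside `W` -/
noncomputable def res (G : SimpleGraph (Fin n)) (W : Finset (Fin n)) (x : Fin n) :
    Finset (Fin n) :=
  G.neighborFinset x \ W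

theorem mem_res {G : SimpleGraph (Fin n)} {W : Finset (Fin n)} {x y : Fin n} :
    y ∈ res G W x ↔ G.Adj x y ∧ y ∉ W := by
  unfold res
  rw [Finset.mem_sdiff, SimpleGraph.mem_neighborFinset]

theorem res_card_eq {G G' : SimpleGraph (Fin n)} {W : Finset (Fin n)}
    (hdeg : ∀ i, G.degree i = G'.degree i) (hW : ∀ w ∈ W, ∀ x, G.Adj w x ↔ G'.Adj w x)
    (x : Fin n) : (res G W x).card = (res G' W x).card := by
  have h1 : G.neighborFinset x ∩ W = G'.neighborFinset x ∩ W := by
    ext y
    simp only [Finset.mem_inter, SimpleGraph.mem_neighborFinset]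
    constructor
    · rintro ⟨h, hy⟩; exact ⟨((hW y hy x).mp h.symm).symm, hy⟩
    · rintro ⟨h, hy⟩; exact ⟨((hW y hy x).mpr h.symm).symm, hy⟩
  have h2 := Finset.card_sdiff_add_card_inter (G.neighborFinset x) W
  have h3 := Finset.card_sdiff_add_card_inter (G'.neighborFinset x) W
  have h4 : (G.neighborFinset x).card = (G'.neighborFinset x).card := hdeg x
  unfold res
  rw [h1] at h2
  omega

theorem exists_c {G : SimpleGraph (Fin n)} {W : Finset (Fin n)} {v a b : Fin n}
    (hvW : v ∉ W) (haW : a ∉ W) (hbW : b ∉ W) (hvb : G.Adj v b) (hva : ¬ G.Adj v a)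
    (hav : a ≠ v) (hr : (res G W b).card ≤ (res G W a).card) :
    ∃ c, c ∉ W ∧ G.Adj a c ∧ ¬ G.Adj b c ∧ c ≠ b ∧ c ≠ v := by
  have hvmem : v ∈ res G W b := mem_res.mpr ⟨hvb.symm, hvW⟩
  have hcard1 : ((res G W b).erase v).card + 1 = (res G W b).card :=
    Finset.card_erase_add_one hvmem
  have hlt : (((res G W b).erase v).erase a).card < ((res G W a).erase b).card := by
    by_cases hab : G.Adj a b
    · have h1 : b ∈ res G W a := mem_res.mpr ⟨hab, hbW⟩
      have h2 : a ∈ (res G W b).erase v :=
        Finset.mem_erase.mpr ⟨hav, mem_res.mpr ⟨hab.symm, haW⟩⟩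
      have e1 := Finset.card_erase_add_one h1
      have e2 := Finset.card_erase_add_one h2
      omega
    · have h1 : b ∉ res G W a := fun h => hab (mem_res.mp h).1
      have h2 : a ∉ (res G W b).erase v := fun h =>
        hab (mem_res.mp (Finset.mem_of_mem_erase h)).1.symm
      rw [Finset.erase_eq_of_notMem h1, Finset.erase_eq_of_notMem h2]
      omega
  obtain ⟨c, hc, hc'⟩ := Finset.exists_mem_notMem_of_card_lt_card hlt
  rw [Finset.mem_erase] at hc
  obtain ⟨hcb, hc⟩ := hc
  obtain ⟨hac, hcW⟩ := mem_res.mp hc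
  have hca : c ≠ a := (G.ne_of_adj hac).symm
  have hcv : c ≠ v := fun h => hva (h ▸ hac).symm
  refine ⟨c, hcW, hac, ?_, hcb, hcv⟩
  intro hbc
  exact hc' (Finset.mem_erase.mpr ⟨hca, Finset.mem_erase.mpr ⟨hcv, mem_res.mpr ⟨hbc, hcW⟩⟩⟩)

theorem conn_inner (W : Finset (Fin n)) (v : Fin n) (hvW : v ∉ W)
    (IH : ∀ G G' : SimpleGraph (Fin n), (∀ i, G.degree i = G'.degree i) →
      (∀ w ∈ insert v W, ∀ x, G.Adj w x ↔ G'.Adj w x) → Relation.ReflTransGen IsSwitch G G') :
    ∀ (j : ℕ) (G G' : SimpleGraph (Fin n)), (∀ i, G.degree i = G'.degree i) →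
      (∀ w ∈ W, ∀ x, G.Adj w x ↔ G'.Adj w x) →
      (G.neighborFinset v \ G'.neighborFinset v).card = j →
      Relation.ReflTransGen IsSwitch G G' := by
  intro j
  induction j with
  | zero =>
    intro G G' hdeg hW hj
    apply IH G G' hdeg
    intro w hw x
    rcases Finset.mem_insert.mp hw with rfl | hw
    · have hsub : G.neighborFinset w ⊆ G'.neighborFinset w := by
        rw [← Finset.sdiff_eq_empty_iff_subset]; exact Finset.card_eq_zero.mp hj
      have heq : G.neighborFinset w = G'.neighborFinset w :=
        Finset.eq_of_subset_of_card_le hsub (le_of_eq (hdeg w).symm)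
      rw [← SimpleGraph.mem_neighborFinset, ← SimpleGraph.mem_neighborFinset, heq]
    · exact hW w hw x
  | succ j ih =>
    intro G G' hdeg hW hj
    obtain ⟨b, hb⟩ : (G.neighborFinset v \ G'.neighborFinset v).Nonempty := by
      rw [← Finset.card_pos]; omega
    have hbmem := hb
    rw [Finset.mem_sdiff, SimpleGraph.mem_neighborFinset, SimpleGraph.mem_neighborFinset] at hb
    obtain ⟨hvb, hvb'⟩ := hb
    have hcomm : (G'.neighborFinset v \ G.neighborFinset v).card = j + 1 := by
      rw [← hj]; exact Finset.card_sdiff_comm (hdeg v).symm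
    obtain ⟨a, ha⟩ : (G'.neighborFinset v \ G.neighborFinset v).Nonempty := by
      rw [← Finset.card_pos]; omega
    rw [Finset.mem_sdiff, SimpleGraph.mem_neighborFinset, SimpleGraph.mem_neighborFinset] at ha
    obtain ⟨hva', hva⟩ := ha
    have hbW : b ∉ W := fun h => hvb' (((hW b h v).mp hvb.symm).symm)
    have haW : a ∉ W := fun h => hva (((hW a h v).mpr hva'.symm).symm)
    have hbv : b ≠ v := (G.ne_of_adj hvb).symm
    have hav : a ≠ v := (G'.ne_of_adj hva').symm
    have hab : a ≠ b := fun h => hva (h ▸ hvb)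
    have hres := res_card_eq hdeg hW
    rcases le_or_gt (res G W b).card (res G W a).card with hle | hlt
    · obtain ⟨c, hcW, hac, hbc, hcb, hcv⟩ := exists_c hvW haW hbW hvb hva hav hle
      have hca : c ≠ a := (G.ne_of_adj hac).symm
      have hal : Allowed G v b a c := ⟨hvb, hac, hva, hbc⟩
      have hsw : IsSwitch G (switchGraph G v b a c) :=
        ⟨v, b, a, c, hbv.symm, hav.symm, hcv.symm, hab.symm, hcb.symm, hca.symm, hal, rfl⟩
      have hdeg1 : ∀ i, (switchGraph G v b a c).degree i = G'.degree i :=
        fun i => (isSwitch_degree hsw i).trans (hdeg i)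
      have hW1 : ∀ w ∈ W, ∀ x, (switchGraph G v b a c).Adj w x ↔ G'.Adj w x := by
        intro w hw x
        rw [← hW w hw x]
        have h1 : w ≠ v := fun h => hvW (h ▸ hw)
        have h2 : w ≠ b := fun h => hbW (h ▸ hw)
        have h3 : w ≠ a := fun h => haW (h ▸ hw)
        have h4 : w ≠ c := fun h => hcW (h ▸ hw)
        exact switch_adj_off h1 h2 h3 h4 x
      have hj1 : ((switchGraph G v b a c).neighborFinset v \ G'.neighborFinset v).card = j := by
        have hset : (switchGraph G v b a c).neighborFinset v \ G'.neighborFinset v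
            = (G.neighborFinset v \ G'.neighborFinset v).erase b := by
          ext x
          rw [Finset.mem_sdiff, Finset.mem_erase, Finset.mem_sdiff,
            SimpleGraph.mem_neighborFinset, SimpleGraph.mem_neighborFinset,
            SimpleGraph.mem_neighborFinset,
            switch_adj_first hbv.symm hav.symm hcv.symm]
          constructor
          · rintro ⟨h | h, hx'⟩
            · exact ⟨h.2, h.1, hx'⟩
            · exact absurd (h ▸ hva') hx'
          · rintro ⟨hxb, hx, hx'⟩
            exact ⟨Or.inl ⟨hx, hxb⟩, hx'⟩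
        rw [hset, Finset.card_erase_of_mem hbmem, hj]
        rfl
      exact Relation.ReflTransGen.head hsw (ih _ G' hdeg1 hW1 hj1)
    · have hle' : (res G' W a).card ≤ (res G' W b).card := by
        rw [← hres a, ← hres b]; exact le_of_lt hlt
      obtain ⟨c, hcW, hbc, hac, hca, hcv⟩ := exists_c hvW hbW haW hva' hvb' hbv hle'
      have hcb : c ≠ b := (G'.ne_of_adj hbc).symm
      have hal : Allowed G' v a b c := ⟨hva', hbc, hvb', hac⟩
      have hsw : IsSwitch G' (switchGraph G' v a b c) :=
        ⟨v, a, b, c, hav.symm, hbv.symm, hcv.symm, hab, hca.symm, hcb.symm, hal, rfl⟩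
      have hdeg1 : ∀ i, G.degree i = (switchGraph G' v a b c).degree i :=
        fun i => (hdeg i).trans (isSwitch_degree hsw i).symm
      have hW1 : ∀ w ∈ W, ∀ x, G.Adj w x ↔ (switchGraph G' v a b c).Adj w x := by
        intro w hw x
        rw [hW w hw x]
        have h1 : w ≠ v := fun h => hvW (h ▸ hw)
        have h2 : w ≠ a := fun h => haW (h ▸ hw)
        have h3 : w ≠ b := fun h => hbW (h ▸ hw)
        have h4 : w ≠ c := fun h => hcW (h ▸ hw)
        exact (switch_adj_off h1 h2 h3 h4 x).symm
      have hj1 : (G.neighborFinset v \ (switchGraph G' v a b c).neighborFinset v).card = j := by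
        have hset : G.neighborFinset v \ (switchGraph G' v a b c).neighborFinset v
            = (G.neighborFinset v \ G'.neighborFinset v).erase b := by
          ext x
          rw [Finset.mem_sdiff, Finset.mem_erase, Finset.mem_sdiff,
            SimpleGraph.mem_neighborFinset, SimpleGraph.mem_neighborFinset,
            SimpleGraph.mem_neighborFinset,
            switch_adj_first hav.symm hbv.symm hcv.symm]
          constructor
          · rintro ⟨hx, hx'⟩
            refine ⟨fun h => hx' (Or.inr h), hx, fun h => ?_⟩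
            by_cases hxa : x = a
            · exact hva (hxa ▸ hx)
            · exact hx' (Or.inl ⟨h, hxa⟩)
          · rintro ⟨hxb, hx, hx'⟩
            refine ⟨hx, ?_⟩
            rintro (h | h)
            · exact hx' h.1
            · exact hxb h
        rw [hset, Finset.card_erase_of_mem hbmem, hj]
        rfl
      exact Relation.ReflTransGen.tail (ih G _ hdeg1 hW1 hj1) (isSwitch_symm hsw)

theorem conn_aux : ∀ (k : ℕ) (W : Finset (Fin n)), (univ \ W).card = k →
    ∀ G G' : SimpleGraph (Fin n), (∀ i, G.degree i = G'.degree i) →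
      (∀ w ∈ W, ∀ x, G.Adj w x ↔ G'.Adj w x) → Relation.ReflTransGen IsSwitch G G' := by
  intro k
  induction k with
  | zero =>
    intro W hW G G' _ hagree
    have hall : ∀ w, w ∈ W := by
      intro w
      by_contra hw
      have hmem : w ∈ univ \ W := Finset.mem_sdiff.mpr ⟨Finset.mem_univ w, hw⟩
      rw [Finset.card_eq_zero.mp hW] at hmem
      exact absurd hmem (Finset.notMem_empty w)
    have hGG : G = G' := by
      ext x y
      exact hagree x (hall x) y
    rw [hGG]
  | succ k ih =>
    intro W hW G G' hdeg hagree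
    obtain ⟨v, hv⟩ : (univ \ W).Nonempty := by rw [← Finset.card_pos]; omega
    have hvW : v ∉ W := (Finset.mem_sdiff.mp hv).2
    have hk : (univ \ insert v W).card = k := by
      have hset : univ \ insert v W = (univ \ W).erase v := by
        ext x
        simp only [Finset.mem_sdiff, Finset.mem_erase, Finset.mem_insert, Finset.mem_univ,
          true_and, not_or]
      rw [hset, Finset.card_erase_of_mem hv, hW]
      rfl
    exact conn_inner W v hvW (fun G G' h1 h2 => ih (insert v W) hk G G' h1 h2) _ G G' hdeg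
      hagree rfl

/-- Any two simple graphs on `Fin n` with the same degrees are joined by a sequence of
switches. -/
theorem switch_connected (G G' : SimpleGraph (Fin n)) (h : ∀ i, G.degree i = G'.degree i) :
    Relation.ReflTransGen IsSwitch G G' :=
  conn_aux _ ∅ rfl G G' h (fun w hw => absurd hw (Finset.notMem_empty w))

/-- A function on the realizations of `d` which is invariant under single switches is
constant. -/
theorem const_of_switch_invariant {d : Fin n → ℕ} (f : Realization n d → ℝ)
    (h : ∀ G G' : Realization n d, IsSwitch G.1 G'.1 → f G = f G') (G G' : Realization n d) :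
    f G = f G' := by
  have key : ∀ H : SimpleGraph (Fin n), Relation.ReflTransGen IsSwitch G.1 H →
      ∀ hH : ∀ i, H.degree i = d i, f G = f ⟨H, hH⟩ := by
    intro H hpath
    induction hpath with
    | refl => intro hH; rfl
    | @tail b c _ hbc ih =>
      intro hH
      have hb : ∀ i, b.degree i = d i := fun i => (isSwitch_degree hbc i).symm.trans (hH i)
      rw [ih hb]
      exact h ⟨b, hb⟩ ⟨c, hH⟩ hbc
  exact key G'.1 (switch_connected G.1 G'.1 (fun i => (G.2 i).trans (G'.2 i).symm)) G'.2

end Vale.Agent.Helper27.KTVConn
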