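import Vale.Agent.Helper27.WnSeries

/-!
Closed forms for the extremal family of the merging inequality of P254 (truncated simplices):
two nonnegativity statements that reduce, after clearing denominators, to the series lemmas
`D_nonneg` and `E_nonneg`.
-/

namespace Vale.Agent.Helper27.WnClosed

open Real Vale.Agent.Helper27.WnSeries

theorem exp_lin (i j : ℕ) (k t x : ℝ) (hx : x = (i : ℝ) * t + (j : ℝ) * (k * t)) :
    exp x = exp t ^ i * exp (k * t) ^ j := by
  rw [hx, Real.exp_add, Real.exp_nat_mul, Real.exp_nat_mul]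

theorem sinh_lin (i j : ℕ) (k t x : ℝ) (hx : x = (i : ℝ) * t + (j : ℝ) * (k * t)) :
    sinh x = (exp t ^ i * exp (k * t) ^ j - (exp t ^ i * exp (k * t) ^ j)⁻¹) / 2 := by
  rw [Real.sinh_eq, Real.exp_neg, exp_lin i j k t x hx]

theorem cosh_lin (i j : ℕ) (k t x : ℝ) (hx : x = (i : ℝ) * t + (j : ℝ) * (k * t)) :
    cosh x = (exp t ^ i * exp (k * t) ^ j + (exp t ^ i * exp (k * t) ^ j)⁻¹) / 2 := by
  rw [Real.cosh_eq, Real.exp_neg, exp_lin i j k t x hx]

/-- Polynomial identity behind `CX_nonneg`. -/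
theorem cx_identity (k t : ℝ) :
    sinh ((4 + 2 * k) * t) * sinh ((8 + 2 * k) * t) * (cosh ((2 + k) * t) * cosh ((4 + k) * t))
        - 8 * cosh (4 * t) * sinh ((2 + k) * t) ^ 2 * (cosh ((2 + k) * t) * cosh ((4 + k) * t))
        + sinh ((4 + 2 * k) * t) * cosh (4 * t) * (k * sinh (2 * t))
      = (1 / 4 * sinh ((14 + 4 * k) * t) - 3 / 4 * sinh ((10 + 2 * k) * t)
          + 1 / 4 * sinh ((6 + 2 * k) * t) - sinh ((2 + 2 * k) * t)
          + (1 + k / 2) * sinh (6 * t) - (3 / 4 + k / 2) * sinh (2 * t))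
        * sinh ((4 + 2 * k) * t) := by
  have hA : exp t ≠ 0 := (Real.exp_pos t).ne'
  have hB : exp (k * t) ≠ 0 := (Real.exp_pos (k * t)).ne'
  rw [sinh_lin 4 2 k t ((4 + 2 * k) * t) (by push_cast; ring),
    sinh_lin 8 2 k t ((8 + 2 * k) * t) (by push_cast; ring),
    cosh_lin 2 1 k t ((2 + k) * t) (by push_cast; ring),
    cosh_lin 4 1 k t ((4 + k) * t) (by push_cast; ring),
    cosh_lin 4 0 k t (4 * t) (by push_cast; ring),
    sinh_lin 2 1 k t ((2 + k) * t) (by push_cast; ring),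
    sinh_lin 2 0 k t (2 * t) (by push_cast; ring),
    sinh_lin 14 4 k t ((14 + 4 * k) * t) (by push_cast; ring),
    sinh_lin 10 2 k t ((10 + 2 * k) * t) (by push_cast; ring),
    sinh_lin 6 2 k t ((6 + 2 * k) * t) (by push_cast; ring),
    sinh_lin 2 2 k t ((2 + 2 * k) * t) (by push_cast; ring),
    sinh_lin 6 0 k t (6 * t) (by push_cast; ring)]
  generalize exp t = A at hA ⊢
  generalize exp (k * t) = B at hB ⊢
  field_simp
  ring

/-- Step 3 closed form. -/
theorem CX_nonneg (k t : ℝ) (hk : 0 ≤ k) (ht : 0 < t) :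
    0 ≤ 1 / 2 * sinh ((4 + 2 * k) * t) * sinh ((8 + 2 * k) * t)
        - 4 * cosh (4 * t) * sinh ((2 + k) * t) ^ 2
        + 1 / 2 * sinh ((4 + 2 * k) * t) * cosh (4 * t)
          * (k * (sinh (2 * t) / (cosh ((2 + k) * t) * cosh ((4 + k) * t)))) := by
  have hD := D_nonneg k t hk ht.le
  have hid := cx_identity k t
  have hS : 0 < sinh ((4 + 2 * k) * t) := Real.sinh_pos_iff.mpr (by positivity)
  have hC1 : 0 < cosh ((2 + k) * t) := Real.cosh_pos _
  have hC2 : 0 < cosh ((4 + k) * t) := Real.cosh_pos _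
  have hCC : 0 < cosh ((2 + k) * t) * cosh ((4 + k) * t) := mul_pos hC1 hC2
  have hrw : 1 / 2 * sinh ((4 + 2 * k) * t) * sinh ((8 + 2 * k) * t)
        - 4 * cosh (4 * t) * sinh ((2 + k) * t) ^ 2
        + 1 / 2 * sinh ((4 + 2 * k) * t) * cosh (4 * t)
          * (k * (sinh (2 * t) / (cosh ((2 + k) * t) * cosh ((4 + k) * t))))
      = (sinh ((4 + 2 * k) * t) * sinh ((8 + 2 * k) * t)
            * (cosh ((2 + k) * t) * cosh ((4 + k) * t))
          - 8 * cosh (4 * t) * sinh ((2 + k) * t) ^ 2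
            * (cosh ((2 + k) * t) * cosh ((4 + k) * t))
          + sinh ((4 + 2 * k) * t) * cosh (4 * t) * (k * sinh (2 * t)))
        / (2 * (cosh ((2 + k) * t) * cosh ((4 + k) * t))) := by
    field_simp
    ring
  rw [hrw, hid]
  exact div_nonneg (mul_nonneg hD hS.le) (by positivity)

/-- Polynomial identity behind `Gc_nonneg`. -/
theorem gc_identity (k t : ℝ) :
    (1 / 2 * sinh ((4 + 2 * k) * t) * sinh ((8 + 2 * k) * t) * (k * sinh (2 * t))
          * (cosh ((2 + k) * t) * cosh ((4 + k) * t) + sinh ((2 + k) * t) * sinh ((4 + k) * t))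
        + 4 * cosh (4 * t) * (k * sinh (2 * t))
          * (cosh ((2 + k) * t) ^ 2 * (sinh ((2 + k) * t) * sinh ((4 + k) * t))
            - sinh ((2 + k) * t) ^ 2 * (cosh ((2 + k) * t) * cosh ((4 + k) * t)))
        + 1 / 2 * sinh ((4 + 2 * k) * t) * cosh (4 * t) * (k * sinh (2 * t)) ^ 2
        - 4 * sinh (2 * k * t)
          * (sinh ((2 + k) * t) * sinh ((4 + k) * t)
            * (cosh ((2 + k) * t) * cosh ((4 + k) * t))))
        * sinh ((8 + 2 * k) * t)
      = 2 * (2 * k / 8 * (cosh ((8 + 2 * k) * (2 * t)) - cosh ((6 + 2 * k) * (2 * t)))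
            - cosh ((4 + 2 * k) * (2 * t)) + cosh (4 * (2 * t))
            + 2 * k / 8 * (cosh (2 * (2 * t)) - 1)
            + 2 * k * (8 + 2 * k) / 16
              * (cosh (4 * (2 * t)) - 2 * cosh (2 * (2 * t)) + 1))
        * (sinh ((2 + k) * t) * sinh ((4 + k) * t)
          * (cosh ((2 + k) * t) * cosh ((4 + k) * t))) := by
  have hA : exp t ≠ 0 := (Real.exp_pos t).ne'
  have hB : exp (k * t) ≠ 0 := (Real.exp_pos (k * t)).ne'
  rw [sinh_lin 4 2 k t ((4 + 2 * k) * t) (by push_cast; ring),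
    sinh_lin 8 2 k t ((8 + 2 * k) * t) (by push_cast; ring),
    cosh_lin 2 1 k t ((2 + k) * t) (by push_cast; ring),
    cosh_lin 4 1 k t ((4 + k) * t) (by push_cast; ring),
    cosh_lin 4 0 k t (4 * t) (by push_cast; ring),
    sinh_lin 2 1 k t ((2 + k) * t) (by push_cast; ring),
    sinh_lin 4 1 k t ((4 + k) * t) (by push_cast; ring),
    sinh_lin 2 0 k t (2 * t) (by push_cast; ring),
    sinh_lin 0 2 k t (2 * k * t) (by push_cast; ring),
    cosh_lin 16 4 k t ((8 + 2 * k) * (2 * t)) (by push_cast; ring),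
    cosh_lin 12 4 k t ((6 + 2 * k) * (2 * t)) (by push_cast; ring),
    cosh_lin 8 4 k t ((4 + 2 * k) * (2 * t)) (by push_cast; ring),
    cosh_lin 8 0 k t (4 * (2 * t)) (by push_cast; ring),
    cosh_lin 4 0 k t (2 * (2 * t)) (by push_cast; ring)]
  generalize exp t = A at hA ⊢
  generalize exp (k * t) = B at hB ⊢
  field_simp
  ring

/-- Step 4 closed form. -/
theorem Gc_nonneg (k t : ℝ) (hk : 0 ≤ k) (ht : 0 < t) :
    4 * sinh (2 * k * t) ≤
      1 / 2 * sinh ((4 + 2 * k) * t) * sinh ((8 + 2 * k) * t)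
          * (k * (sinh (2 * t) / (sinh ((2 + k) * t) * sinh ((4 + k) * t)))
            + k * (sinh (2 * t) / (cosh ((2 + k) * t) * cosh ((4 + k) * t))))
        + 4 * cosh (4 * t)
          * (cosh ((2 + k) * t) ^ 2
              * (k * (sinh (2 * t) / (cosh ((2 + k) * t) * cosh ((4 + k) * t))))
            - sinh ((2 + k) * t) ^ 2
              * (k * (sinh (2 * t) / (sinh ((2 + k) * t) * sinh ((4 + k) * t)))))
        + 1 / 2 * sinh ((4 + 2 * k) * t) * cosh (4 * t)
          * ((k * (sinh (2 * t) / (sinh ((2 + k) * t) * sinh ((4 + k) * t))))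
            * (k * (sinh (2 * t) / (cosh ((2 + k) * t) * cosh ((4 + k) * t))))) := by
  have hE := E_nonneg (2 * k) (2 * t) (by positivity)
  have hid := gc_identity k t
  have hSb : 0 < sinh ((8 + 2 * k) * t) := Real.sinh_pos_iff.mpr (by positivity)
  have hS1 : 0 < sinh ((2 + k) * t) := Real.sinh_pos_iff.mpr (by positivity)
  have hS2 : 0 < sinh ((4 + k) * t) := Real.sinh_pos_iff.mpr (by positivity)
  have hC1 : 0 < cosh ((2 + k) * t) := Real.cosh_pos _
  have hC2 : 0 < cosh ((4 + k) * t) := Real.cosh_pos _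
  have hden : 0 < sinh ((2 + k) * t) * sinh ((4 + k) * t)
      * (cosh ((2 + k) * t) * cosh ((4 + k) * t)) := by positivity
  have hrw : 1 / 2 * sinh ((4 + 2 * k) * t) * sinh ((8 + 2 * k) * t)
          * (k * (sinh (2 * t) / (sinh ((2 + k) * t) * sinh ((4 + k) * t)))
            + k * (sinh (2 * t) / (cosh ((2 + k) * t) * cosh ((4 + k) * t))))
        + 4 * cosh (4 * t)
          * (cosh ((2 + k) * t) ^ 2
              * (k * (sinh (2 * t) / (cosh ((2 + k) * t) * cosh ((4 + k) * t))))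
            - sinh ((2 + k) * t) ^ 2
              * (k * (sinh (2 * t) / (sinh ((2 + k) * t) * sinh ((4 + k) * t)))))
        + 1 / 2 * sinh ((4 + 2 * k) * t) * cosh (4 * t)
          * ((k * (sinh (2 * t) / (sinh ((2 + k) * t) * sinh ((4 + k) * t))))
            * (k * (sinh (2 * t) / (cosh ((2 + k) * t) * cosh ((4 + k) * t)))))
        - 4 * sinh (2 * k * t)
      = (1 / 2 * sinh ((4 + 2 * k) * t) * sinh ((8 + 2 * k) * t) * (k * sinh (2 * t))
          * (cosh ((2 + k) * t) * cosh ((4 + k) * t) + sinh ((2 + k) * t) * sinh ((4 + k) * t))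
        + 4 * cosh (4 * t) * (k * sinh (2 * t))
          * (cosh ((2 + k) * t) ^ 2 * (sinh ((2 + k) * t) * sinh ((4 + k) * t))
            - sinh ((2 + k) * t) ^ 2 * (cosh ((2 + k) * t) * cosh ((4 + k) * t)))
        + 1 / 2 * sinh ((4 + 2 * k) * t) * cosh (4 * t) * (k * sinh (2 * t)) ^ 2
        - 4 * sinh (2 * k * t)
          * (sinh ((2 + k) * t) * sinh ((4 + k) * t)
            * (cosh ((2 + k) * t) * cosh ((4 + k) * t))))
        / (sinh ((2 + k) * t) * sinh ((4 + k) * t)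
          * (cosh ((2 + k) * t) * cosh ((4 + k) * t))) := by
    field_simp
  have hnum : 0 ≤ 1 / 2 * sinh ((4 + 2 * k) * t) * sinh ((8 + 2 * k) * t) * (k * sinh (2 * t))
          * (cosh ((2 + k) * t) * cosh ((4 + k) * t) + sinh ((2 + k) * t) * sinh ((4 + k) * t))
        + 4 * cosh (4 * t) * (k * sinh (2 * t))
          * (cosh ((2 + k) * t) ^ 2 * (sinh ((2 + k) * t) * sinh ((4 + k) * t))
            - sinh ((2 + k) * t) ^ 2 * (cosh ((2 + k) * t) * cosh ((4 + k) * t)))
        + 1 / 2 * sinh ((4 + 2 * k) * t) * cosh (4 * t) * (k * sinh (2 * t)) ^ 2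
        - 4 * sinh (2 * k * t)
          * (sinh ((2 + k) * t) * sinh ((4 + k) * t)
            * (cosh ((2 + k) * t) * cosh ((4 + k) * t))) := by
    have h2 : 0 ≤ 2 * (2 * k / 8 * (cosh ((8 + 2 * k) * (2 * t)) - cosh ((6 + 2 * k) * (2 * t)))
            - cosh ((4 + 2 * k) * (2 * t)) + cosh (4 * (2 * t))
            + 2 * k / 8 * (cosh (2 * (2 * t)) - 1)
            + 2 * k * (8 + 2 * k) / 16
              * (cosh (4 * (2 * t)) - 2 * cosh (2 * (2 * t)) + 1))
        * (sinh ((2 + k) * t) * sinh ((4 + k) * t)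
          * (cosh ((2 + k) * t) * cosh ((4 + k) * t))) :=
      mul_nonneg (mul_nonneg (by norm_num) hE) hden.le
    rw [← hid] at h2
    exact nonneg_of_mul_nonneg_left h2 hSb
  have hfin := div_nonneg hnum hden.le
  rw [← hrw] at hfin
  linarith

end Vale.Agent.Helper27.WnClosed
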