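import Mathlib

/-!
The algebraic induction behind the truncated simplex inequality of P254.

For reals `a_i ∈ (0, 1]` with product `p`, put `g_i = 1 - p a_i^2`, `U0 = ∑ (1 - a_i) / g_i`,
`L = ∑ (1 - a_i)^2 / g_i`. Then
`∏ g_i * ((1 - p - p L)^2 - p ((1 - p) U0 + p L)^2) ≤ (1 - p)^(n + 4)`.

The proof merges the two smallest variables `u ≤ v` into the single variable `u v`; the merging
step is reduced by an exact identity to an inequality on the remaining variables, which is taken
here as the hypothesis `StarHyp`.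
-/

namespace Vale.Agent.Helper27.WnInduct

open Finset

/-- The inequality on the remaining variables used by the merging step. -/
def StarHyp : Prop :=
  ∀ (n : ℕ) (a : Fin n → ℝ) (c p : ℝ), 0 < c → c < 1 →
    (∀ k, c ≤ a k ^ 2 ∧ 0 < a k ∧ a k ≤ 1) → p = c * ∏ k, a k →
    4 * (c - p) ≤
      (1 - p * c) * (∑ k, (1 - a k) / (1 - p * a k ^ 2)
          + p * ∑ k, a k * (1 - a k) / (1 - p * a k ^ 2))
        + (1 + c) * p * (4 * ∑ k, (1 - a k) ^ 2 / (1 - p * a k ^ 2)
          + (∑ k, (1 - a k) / (1 - p * a k ^ 2)) ^ 2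
          - p * (∑ k, a k * (1 - a k) / (1 - p * a k ^ 2)) ^ 2)

/-- Product of the `g`-factors of a list. -/
noncomputable def gP (p : ℝ) (l : List ℝ) : ℝ := (l.map (fun x => 1 - p * x ^ 2)).prod

/-- The sum `U0` of a list. -/
noncomputable def u0 (p : ℝ) (l : List ℝ) : ℝ :=
  (l.map (fun x => (1 - x) / (1 - p * x ^ 2))).sum

/-- The sum `U1` of a list. -/
noncomputable def u1 (p : ℝ) (l : List ℝ) : ℝ :=
  (l.map (fun x => x * (1 - x) / (1 - p * x ^ 2))).sum

/-- The sum `L` of a list. -/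
noncomputable def lS (p : ℝ) (l : List ℝ) : ℝ :=
  (l.map (fun x => (1 - x) ^ 2 / (1 - p * x ^ 2))).sum

/-- The left side of the inequality for a list. -/
noncomputable def phi (p : ℝ) (l : List ℝ) : ℝ :=
  gP p l * ((1 - p - p * lS p l) ^ 2 - p * ((1 - p) * u0 p l + p * lS p l) ^ 2)

theorem gP_cons (p x : ℝ) (l : List ℝ) : gP p (x :: l) = (1 - p * x ^ 2) * gP p l := by
  simp [gP]

theorem u0_cons (p x : ℝ) (l : List ℝ) :
    u0 p (x :: l) = (1 - x) / (1 - p * x ^ 2) + u0 p l := by
  simp [u0]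

theorem u1_cons (p x : ℝ) (l : List ℝ) :
    u1 p (x :: l) = x * (1 - x) / (1 - p * x ^ 2) + u1 p l := by
  simp [u1]

theorem lS_cons (p x : ℝ) (l : List ℝ) :
    lS p (x :: l) = (1 - x) ^ 2 / (1 - p * x ^ 2) + lS p l := by
  simp [lS]

theorem u1_eq (p : ℝ) (l : List ℝ) : u1 p l = u0 p l - lS p l := by
  induction l with
  | nil => simp [u1, u0, lS]
  | cons x t ih =>
    rw [u1_cons, u0_cons, lS_cons, ih]
    ring

theorem phi_perm (p : ℝ) {l l' : List ℝ} (h : l.Perm l') : phi p l = phi p l' := by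
  unfold phi gP u0 lS
  rw [(h.map _).prod_eq, (h.map (fun x => (1 - x) / (1 - p * x ^ 2))).sum_eq,
    (h.map (fun x => (1 - x) ^ 2 / (1 - p * x ^ 2))).sum_eq]

theorem prod_pos_le_one (l : List ℝ) (hl : ∀ x ∈ l, 0 < x ∧ x ≤ 1) :
    0 < l.prod ∧ l.prod ≤ 1 := by
  induction l with
  | nil => simp
  | cons x t ih =>
    have hx := hl x (by simp)
    have ht := ih (fun y hy => hl y (by simp [hy]))
    rw [List.prod_cons]
    exact ⟨mul_pos hx.1 ht.1, mul_le_one₀ hx.2 ht.1.le ht.2⟩

/-- Signs of the data of the remaining variables. -/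
theorem rest_signs (p : ℝ) (hp0 : 0 ≤ p) (hp1 : p < 1) (l : List ℝ)
    (hl : ∀ x ∈ l, 0 < x ∧ x ≤ 1) :
    0 ≤ gP p l ∧ 0 ≤ u0 p l ∧ lS p l ≤ u0 p l := by
  induction l with
  | nil => simp [gP, u0, lS]
  | cons x t ih =>
    have hx := hl x (by simp)
    obtain ⟨h1, h2, h3⟩ := ih (fun y hy => hl y (by simp [hy]))
    have hx2 : x ^ 2 ≤ 1 := by nlinarith [hx.1, hx.2]
    have hg : 0 < 1 - p * x ^ 2 := by nlinarith [sq_nonneg x]
    rw [gP_cons, u0_cons, lS_cons]
    have ha : 0 ≤ (1 - x) / (1 - p * x ^ 2) := div_nonneg (by linarith) hg.le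
    have hb : (1 - x) ^ 2 / (1 - p * x ^ 2) ≤ (1 - x) / (1 - p * x ^ 2) := by
      apply div_le_div_of_nonneg_right _ hg.le
      nlinarith [hx.1, hx.2]
    exact ⟨mul_nonneg hg.le h1, by linarith, by linarith⟩

/-- One-variable reduction. -/
theorem red (A B x p : ℝ) (hg : 1 - p * x ^ 2 ≠ 0) :
    (1 - p * x ^ 2) * ((A - p * ((1 - x) ^ 2 / (1 - p * x ^ 2))) ^ 2
        - p * (B + (1 - p) * ((1 - x) / (1 - p * x ^ 2))
            + p * ((1 - x) ^ 2 / (1 - p * x ^ 2))) ^ 2)
      = (1 - p * x ^ 2) * (A ^ 2 - p * B ^ 2) - 2 * p * (1 - x) ^ 2 * A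
        - 2 * p * (1 - x) * (1 - p * x) * B - p * (1 - p) * (1 - x) ^ 2 := by
  field_simp
  ring

theorem red_A (A x p : ℝ) (hg : 1 - p * x ^ 2 ≠ 0) :
    (1 - p * x ^ 2) * (A - p * ((1 - x) ^ 2 / (1 - p * x ^ 2)))
      = (1 - p * x ^ 2) * A - p * (1 - x) ^ 2 := by
  field_simp

theorem red_B (B x p : ℝ) (hg : 1 - p * x ^ 2 ≠ 0) :
    (1 - p * x ^ 2) * (B + (1 - p) * ((1 - x) / (1 - p * x ^ 2))
        + p * ((1 - x) ^ 2 / (1 - p * x ^ 2)))
      = (1 - p * x ^ 2) * B + (1 - x) * (1 - p * x) := by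
  field_simp
  ring

/-- Polynomial form of the left side with one distinguished variable. -/
theorem phi_one (x p G U0 L : ℝ) (hg : 1 - p * x ^ 2 ≠ 0) :
    (1 - p * x ^ 2) * G
        * ((1 - p - p * ((1 - x) ^ 2 / (1 - p * x ^ 2) + L)) ^ 2
          - p * ((1 - p) * ((1 - x) / (1 - p * x ^ 2) + U0)
              + p * ((1 - x) ^ 2 / (1 - p * x ^ 2) + L)) ^ 2)
      = G * ((1 - p * x ^ 2) * ((1 - p - p * L) ^ 2 - p * ((1 - p) * U0 + p * L) ^ 2)
          - 2 * p * (1 - x) ^ 2 * (1 - p - p * L)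
          - 2 * p * (1 - x) * (1 - p * x) * ((1 - p) * U0 + p * L)
          - p * (1 - p) * (1 - x) ^ 2) := by
  rw [← red (1 - p - p * L) ((1 - p) * U0 + p * L) x p hg]
  ring

/-- Polynomial form of the left side with two distinguished variables. -/
theorem phi_two (u v p G U0 L : ℝ) (hu : 1 - p * u ^ 2 ≠ 0) (hv : 1 - p * v ^ 2 ≠ 0) :
    (1 - p * u ^ 2) * ((1 - p * v ^ 2) * G)
        * ((1 - p - p * ((1 - u) ^ 2 / (1 - p * u ^ 2)
              + ((1 - v) ^ 2 / (1 - p * v ^ 2) + L))) ^ 2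
          - p * ((1 - p) * ((1 - u) / (1 - p * u ^ 2) + ((1 - v) / (1 - p * v ^ 2) + U0))
              + p * ((1 - u) ^ 2 / (1 - p * u ^ 2)
                + ((1 - v) ^ 2 / (1 - p * v ^ 2) + L))) ^ 2)
      = G * ((1 - p * u ^ 2)
            * ((1 - p * v ^ 2) * ((1 - p - p * L) ^ 2 - p * ((1 - p) * U0 + p * L) ^ 2)
              - 2 * p * (1 - v) ^ 2 * (1 - p - p * L)
              - 2 * p * (1 - v) * (1 - p * v) * ((1 - p) * U0 + p * L)
              - p * (1 - p) * (1 - v) ^ 2)
          - 2 * p * (1 - u) ^ 2 * ((1 - p * v ^ 2) * (1 - p - p * L) - p * (1 - v) ^ 2)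
          - 2 * p * (1 - u) * (1 - p * u)
            * ((1 - p * v ^ 2) * ((1 - p) * U0 + p * L) + (1 - v) * (1 - p * v))
          - p * (1 - p) * (1 - u) ^ 2 * (1 - p * v ^ 2)) := by
  have h1 := red ((1 - p - p * L) - p * ((1 - v) ^ 2 / (1 - p * v ^ 2)))
    (((1 - p) * U0 + p * L) + (1 - p) * ((1 - v) / (1 - p * v ^ 2))
      + p * ((1 - v) ^ 2 / (1 - p * v ^ 2))) u p hu
  have h2 := red (1 - p - p * L) ((1 - p) * U0 + p * L) v p hv
  have h3 := red_A (1 - p - p * L) v p hv
  have h4 := red_B ((1 - p) * U0 + p * L) v p hv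
  rw [← h2, ← h3, ← h4]
  have e : (1 - p * u ^ 2) * ((1 - p * v ^ 2) * G)
        * ((1 - p - p * ((1 - u) ^ 2 / (1 - p * u ^ 2)
              + ((1 - v) ^ 2 / (1 - p * v ^ 2) + L))) ^ 2
          - p * ((1 - p) * ((1 - u) / (1 - p * u ^ 2) + ((1 - v) / (1 - p * v ^ 2) + U0))
              + p * ((1 - u) ^ 2 / (1 - p * u ^ 2)
                + ((1 - v) ^ 2 / (1 - p * v ^ 2) + L))) ^ 2)
      = G * ((1 - p * v ^ 2) * ((1 - p * u ^ 2)
          * (((1 - p - p * L) - p * ((1 - v) ^ 2 / (1 - p * v ^ 2))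
                - p * ((1 - u) ^ 2 / (1 - p * u ^ 2))) ^ 2
            - p * ((((1 - p) * U0 + p * L) + (1 - p) * ((1 - v) / (1 - p * v ^ 2))
                  + p * ((1 - v) ^ 2 / (1 - p * v ^ 2)))
                + (1 - p) * ((1 - u) / (1 - p * u ^ 2))
                + p * ((1 - u) ^ 2 / (1 - p * u ^ 2))) ^ 2))) := by
    ring
  rw [e, h1]
  ring

/-- The merging identity, in independent real variables. -/
theorem merge_identity (u v p G U0 L : ℝ) (hu : 1 - p * u ^ 2 ≠ 0) (hv : 1 - p * v ^ 2 ≠ 0)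
    (hc : 1 - p * (u * v) ^ 2 ≠ 0) :
    (1 - p) * ((1 - p * (u * v) ^ 2) * G
          * ((1 - p - p * ((1 - u * v) ^ 2 / (1 - p * (u * v) ^ 2) + L)) ^ 2
            - p * ((1 - p) * ((1 - u * v) / (1 - p * (u * v) ^ 2) + U0)
                + p * ((1 - u * v) ^ 2 / (1 - p * (u * v) ^ 2) + L)) ^ 2))
        - (1 - p * u ^ 2) * ((1 - p * v ^ 2) * G)
          * ((1 - p - p * ((1 - u) ^ 2 / (1 - p * u ^ 2)
                + ((1 - v) ^ 2 / (1 - p * v ^ 2) + L))) ^ 2
            - p * ((1 - p) * ((1 - u) / (1 - p * u ^ 2) + ((1 - v) / (1 - p * v ^ 2) + U0))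
                + p * ((1 - u) ^ 2 / (1 - p * u ^ 2)
                  + ((1 - v) ^ 2 / (1 - p * v ^ 2) + L))) ^ 2)
      = p * (1 - p) * (1 - u) * (1 - v) * G
          * (2 * (1 - p * (u * v)) * (4 + U0 + p * (U0 - L))
            - (1 + u) * (1 + v) * (4 * (1 - p) - p * (4 * L + U0 ^ 2 - p * (U0 - L) ^ 2))) := by
  rw [phi_one (u * v) p G U0 L hc, phi_two u v p G U0 L hu hv]
  ring

theorem sum_get (l : List ℝ) (F : ℝ → ℝ) :
    ∑ k : Fin l.length, F (l.get k) = (l.map F).sum := by
  induction l with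
  | nil => simp
  | cons x t ih =>
    simp only [List.get_eq_getElem] at ih
    simp [Fin.sum_univ_succ, ih]

theorem prod_get (l : List ℝ) : ∏ k : Fin l.length, l.get k = l.prod := by
  induction l with
  | nil => simp
  | cons x t ih =>
    simp only [List.get_eq_getElem] at ih
    simp [Fin.prod_univ_succ, ih]

/-- The hypothesis in list form. -/
theorem star_list (hstar : StarHyp) (R : List ℝ) (c p : ℝ) (hc0 : 0 < c) (hc1 : c < 1)
    (hR : ∀ x ∈ R, c ≤ x ^ 2 ∧ 0 < x ∧ x ≤ 1) (hp : p = c * R.prod) :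
    4 * (c - p) ≤ (1 - p * c) * (u0 p R + p * u1 p R)
      + (1 + c) * p * (4 * lS p R + u0 p R ^ 2 - p * u1 p R ^ 2) := by
  have h := hstar R.length (fun k => R.get k) c p hc0 hc1
    (fun k => hR _ (List.get_mem R k)) (by rw [prod_get]; exact hp)
  rw [sum_get R (fun x => (1 - x) / (1 - p * x ^ 2)),
    sum_get R (fun x => x * (1 - x) / (1 - p * x ^ 2)),
    sum_get R (fun x => (1 - x) ^ 2 / (1 - p * x ^ 2))] at h
  exact h

/-- The list form of the inequality. -/
theorem wn_list (hstar : StarHyp) : ∀ (n : ℕ) (l : List ℝ), l.length = n →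
    (∀ x ∈ l, 0 < x ∧ x ≤ 1) → phi l.prod l ≤ (1 - l.prod) ^ (n + 4) := by
  intro n
  induction n using Nat.strong_induction_on with
  | _ n ih =>
    intro l hlen hl
    obtain ⟨hp0, hp1⟩ := prod_pos_le_one l hl
    by_cases hpe : l.prod = 1
    · rw [hpe]
      have h0 : phi 1 l = 0 := by
        unfold phi
        ring
      rw [h0]
      simp
    have hplt : l.prod < 1 := lt_of_le_of_ne hp1 hpe
    obtain ⟨l', hperm, hsorted⟩ : ∃ l' : List ℝ, l'.Perm l ∧ l'.Pairwise (· ≤ ·) :=
      ⟨l.insertionSort (· ≤ ·), List.perm_insertionSort _ l, List.pairwise_insertionSort _ l⟩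
    have hl' : ∀ x ∈ l', 0 < x ∧ x ≤ 1 := fun x hx => hl x (hperm.mem_iff.mp hx)
    have hlen' : l'.length = n := by rw [hperm.length_eq, hlen]
    rw [← phi_perm _ hperm, ← hperm.prod_eq] at *
    rcases l' with _ | ⟨u, _ | ⟨v, R⟩⟩
    · simp at hpe
    · -- one variable: equality
      simp only [List.prod_cons, List.prod_nil, mul_one] at hpe hplt ⊢
      simp only [List.length_cons, List.length_nil] at hlen'
      have hu := hl' u (by simp)
      have hg : 1 - u * u ^ 2 ≠ 0 := by
        have : u * u ^ 2 < 1 := by nlinarith [hu.1, hu.2, sq_nonneg u]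
        linarith
      have hg3 : 1 - u ^ 3 ≠ 0 := by
        have e : u ^ 3 = u * u ^ 2 := by ring
        rw [e]
        exact hg
      subst hlen'
      apply le_of_eq
      unfold phi
      rw [gP_cons, lS_cons, u0_cons]
      simp only [gP, u0, lS, List.map_nil, List.prod_nil, List.sum_nil]
      field_simp
      ring
    · -- at least two variables: merge the two smallest
      have hu := hl' u (by simp)
      have hv := hl' v (by simp)
      have hR : ∀ x ∈ R, 0 < x ∧ x ≤ 1 := fun x hx => hl' x (by simp [hx])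
      rw [List.pairwise_cons, List.pairwise_cons] at hsorted
      obtain ⟨hu_le, hv_le, -⟩ := hsorted
      have huv : u ≤ v := hu_le v (by simp)
      have hvR : ∀ x ∈ R, v ≤ x := fun x hx => hv_le x hx
      obtain ⟨hRp0, hRp1⟩ := prod_pos_le_one R hR
      set p : ℝ := (u :: v :: R).prod with hpdef
      have hpeq : p = u * v * R.prod := by
        rw [hpdef, List.prod_cons, List.prod_cons]
        ring
      have hc0 : 0 < u * v := mul_pos hu.1 hv.1
      have hc1 : u * v < 1 := by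
        by_contra hcon
        push Not at hcon
        have hu1 : u = 1 := by nlinarith [hu.1, hu.2, hv.1, hv.2]
        have hv1 : v = 1 := by nlinarith [hu.1, hu.2, hv.1, hv.2]
        have hR1 : R.prod = 1 := by
          apply List.prod_eq_one
          intro x hx
          exact le_antisymm (hR x hx).2 (by have := hvR x hx; linarith)
        apply hpe
        rw [hpeq, hu1, hv1, hR1]
        norm_num
      have hRc : ∀ x ∈ R, u * v ≤ x ^ 2 ∧ 0 < x ∧ x ≤ 1 := by
        intro x hx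
        have h1 := hvR x hx
        refine ⟨?_, hR x hx⟩
        nlinarith [hu.1, hv.1]
      have hS := star_list hstar R (u * v) p hc0 hc1 hRc hpeq
      rw [u1_eq] at hS
      obtain ⟨hG0, hU0, hLU⟩ := rest_signs p hp0.le hplt R hR
      -- the bracket is nonnegative
      have hpc : 0 < 1 - p * (u * v) := by nlinarith
      have hbr : 0 ≤ 2 * (1 - p * (u * v)) * (4 + u0 p R + p * (u0 p R - lS p R))
          - (1 + u) * (1 + v)
            * (4 * (1 - p) - p * (4 * lS p R + u0 p R ^ 2 - p * (u0 p R - lS p R) ^ 2)) := by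
        have hD : 0 ≤ u0 p R + p * (u0 p R - lS p R) := by
          have : 0 ≤ p * (u0 p R - lS p R) := mul_nonneg hp0.le (by linarith)
          linarith
        have h1 : 0 ≤ 2 * (1 - p * (u * v)) * (4 + u0 p R + p * (u0 p R - lS p R)) := by
          have : 0 ≤ 4 + u0 p R + p * (u0 p R - lS p R) := by linarith
          positivity
        have huv1 : 0 ≤ (1 + u) * (1 + v) := by
          have := hu.1
          have := hv.1
          positivity
        rcases le_or_gt (4 * (1 - p) - p * (4 * lS p R + u0 p R ^ 2 - p * (u0 p R - lS p R) ^ 2))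
          0 with hT | hT
        · have : (1 + u) * (1 + v)
              * (4 * (1 - p) - p * (4 * lS p R + u0 p R ^ 2 - p * (u0 p R - lS p R) ^ 2)) ≤ 0 :=
            mul_nonpos_of_nonneg_of_nonpos huv1 hT
          linarith
        · have h2 : (1 + u) * (1 + v) ≤ 2 * (1 + u * v) := by nlinarith [hu.2, hv.2]
          have h3 : (1 + u) * (1 + v)
              * (4 * (1 - p) - p * (4 * lS p R + u0 p R ^ 2 - p * (u0 p R - lS p R) ^ 2))
              ≤ 2 * (1 + u * v)
                * (4 * (1 - p) - p * (4 * lS p R + u0 p R ^ 2 - p * (u0 p R - lS p R) ^ 2)) :=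
            mul_le_mul_of_nonneg_right h2 hT.le
          have key : 2 * (1 - p * (u * v)) * (4 + u0 p R + p * (u0 p R - lS p R))
              - 2 * (1 + u * v)
                * (4 * (1 - p) - p * (4 * lS p R + u0 p R ^ 2 - p * (u0 p R - lS p R) ^ 2))
              = 2 * ((1 - p * (u * v)) * (u0 p R + p * (u0 p R - lS p R))
                + (1 + u * v) * p * (4 * lS p R + u0 p R ^ 2 - p * (u0 p R - lS p R) ^ 2)
                - 4 * (u * v - p)) := by ring
          linarith
      -- denominators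
      have hu2 : u ^ 2 ≤ 1 := by nlinarith [hu.1, hu.2]
      have hv2 : v ^ 2 ≤ 1 := by nlinarith [hv.1, hv.2]
      have hgu : 1 - p * u ^ 2 ≠ 0 := by
        have : p * u ^ 2 < 1 := by nlinarith [sq_nonneg u]
        linarith
      have hgv : 1 - p * v ^ 2 ≠ 0 := by
        have : p * v ^ 2 < 1 := by nlinarith [sq_nonneg v]
        linarith
      have hgc : 1 - p * (u * v) ^ 2 ≠ 0 := by
        have h1 : (u * v) ^ 2 ≤ 1 := by nlinarith
        have : p * (u * v) ^ 2 < 1 := by nlinarith [sq_nonneg (u * v)]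
        linarith
      have hid := merge_identity u v p (gP p R) (u0 p R) (lS p R) hgu hgv hgc
      -- the induction hypothesis for the merged list
      have hlenR : (u * v :: R).length = n - 1 := by
        simp only [List.length_cons] at hlen' ⊢
        omega
      have hn1 : n - 1 < n := by
        simp only [List.length_cons] at hlen'
        omega
      have hmem : ∀ x ∈ (u * v :: R), 0 < x ∧ x ≤ 1 := by
        intro x hx
        rcases List.mem_cons.mp hx with rfl | hx
        · exact ⟨hc0, hc1.le⟩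
        · exact hR x hx
      have hih := ih (n - 1) hn1 (u * v :: R) hlenR hmem
      have hprod : (u * v :: R).prod = p := by
        rw [List.prod_cons, hpeq]
      rw [hprod] at hih
      -- assemble
      have hphi_uv : phi p (u :: v :: R)
          = (1 - p * u ^ 2) * ((1 - p * v ^ 2) * gP p R)
          * ((1 - p - p * ((1 - u) ^ 2 / (1 - p * u ^ 2)
                + ((1 - v) ^ 2 / (1 - p * v ^ 2) + lS p R))) ^ 2
            - p * ((1 - p) * ((1 - u) / (1 - p * u ^ 2) + ((1 - v) / (1 - p * v ^ 2) + u0 p R))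
                + p * ((1 - u) ^ 2 / (1 - p * u ^ 2)
                  + ((1 - v) ^ 2 / (1 - p * v ^ 2) + lS p R))) ^ 2) := by
        unfold phi
        rw [gP_cons, gP_cons, lS_cons, lS_cons, u0_cons, u0_cons]
      have hphi_c : phi p (u * v :: R)
          = (1 - p * (u * v) ^ 2) * gP p R
          * ((1 - p - p * ((1 - u * v) ^ 2 / (1 - p * (u * v) ^ 2) + lS p R)) ^ 2
            - p * ((1 - p) * ((1 - u * v) / (1 - p * (u * v) ^ 2) + u0 p R)
                + p * ((1 - u * v) ^ 2 / (1 - p * (u * v) ^ 2) + lS p R)) ^ 2) := by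
        unfold phi
        rw [gP_cons, lS_cons, u0_cons]
      rw [← hphi_uv, ← hphi_c] at hid
      have hrhs : 0 ≤ p * (1 - p) * (1 - u) * (1 - v) * gP p R
          * (2 * (1 - p * (u * v)) * (4 + u0 p R + p * (u0 p R - lS p R))
            - (1 + u) * (1 + v)
              * (4 * (1 - p) - p * (4 * lS p R + u0 p R ^ 2 - p * (u0 p R - lS p R) ^ 2))) := by
        have h1p : 0 ≤ 1 - p := by linarith
        have h1u : 0 ≤ 1 - u := by linarith [hu.2]
        have h1v : 0 ≤ 1 - v := by linarith [hv.2]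
        have h1 : 0 ≤ p * (1 - p) * (1 - u) * (1 - v) * gP p R :=
          mul_nonneg (mul_nonneg (mul_nonneg (mul_nonneg hp0.le h1p) h1u) h1v) hG0
        exact mul_nonneg h1 hbr
      have hdiff : 0 ≤ (1 - p) * phi p (u * v :: R) - phi p (u :: v :: R) := by
        rw [hid]
        exact hrhs
      have hmerge : phi p (u :: v :: R) ≤ (1 - p) * phi p (u * v :: R) := by linarith
      have h1p : 0 ≤ 1 - p := by linarith
      calc phi p (u :: v :: R) ≤ (1 - p) * phi p (u * v :: R) := hmerge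
        _ ≤ (1 - p) * (1 - p) ^ (n - 1 + 4) := mul_le_mul_of_nonneg_left hih h1p
        _ = (1 - p) ^ (n + 4) := by
          have : n - 1 + 4 + 1 = n + 4 := by
            simp only [List.length_cons] at hlen'
            omega
          rw [← this, pow_succ]
          ring

/-- The inequality for a finite family. -/
theorem wn_finset (hstar : StarHyp) {ι : Type*} (s : Finset ι) (a : ι → ℝ) (p : ℝ)
    (ha : ∀ i ∈ s, 0 < a i ∧ a i ≤ 1) (hp : p = ∏ i ∈ s, a i) :
    (∏ i ∈ s, (1 - p * a i ^ 2))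
        * ((1 - p - p * ∑ i ∈ s, (1 - a i) ^ 2 / (1 - p * a i ^ 2)) ^ 2
          - p * ((1 - p) * ∑ i ∈ s, (1 - a i) / (1 - p * a i ^ 2)
              + p * ∑ i ∈ s, (1 - a i) ^ 2 / (1 - p * a i ^ 2)) ^ 2)
      ≤ (1 - p) ^ (s.card + 4) := by
  have hmem : ∀ x ∈ s.toList.map a, 0 < x ∧ x ≤ 1 := by
    intro x hx
    obtain ⟨i, hi, rfl⟩ := List.mem_map.mp hx
    exact ha i (Finset.mem_toList.mp hi)
  have hlen : (s.toList.map a).length = s.card := by simp
  have hprod : (s.toList.map a).prod = p := by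
    rw [hp, Finset.prod_map_toList]
  have h := wn_list hstar s.card (s.toList.map a) hlen hmem
  rw [hprod] at h
  unfold phi gP u0 lS at h
  simp only [List.map_map] at h
  have e1 : (s.toList.map ((fun x => 1 - p * x ^ 2) ∘ a)).prod = ∏ i ∈ s, (1 - p * a i ^ 2) :=
    Finset.prod_map_toList s _
  have e2 : (s.toList.map ((fun x => (1 - x) ^ 2 / (1 - p * x ^ 2)) ∘ a)).sum
      = ∑ i ∈ s, (1 - a i) ^ 2 / (1 - p * a i ^ 2) := Finset.sum_map_toList s _
  have e3 : (s.toList.map ((fun x => (1 - x) / (1 - p * x ^ 2)) ∘ a)).sum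
      = ∑ i ∈ s, (1 - a i) / (1 - p * a i ^ 2) := Finset.sum_map_toList s _
  rw [e1, e2, e3] at h
  exact h

end Vale.Agent.Helper27.WnInduct
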