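import Mathlib

/-!
Two positivity lemmas for sums of hyperbolic functions, used for the truncated simplex
inequality of P254. Both are proved by expanding into power series and checking that every
coefficient is nonnegative; the coefficients are handled by a short induction on the exponent.
-/

namespace Vale.Agent.Helper27.WnSeries

open Real

/-- `(N/8) ((8+N)^k - (6+N)^k) - (4+N)^k + 4^k ≥ 0` for `N ≥ 0` and `k ≥ 4`. -/
theorem P_nonneg (N : ℝ) (hN : 0 ≤ N) (k : ℕ) (hk : 4 ≤ k) :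
    0 ≤ N / 8 * ((8 + N) ^ k - (6 + N) ^ k) - (4 + N) ^ k + 4 ^ k := by
  induction k, hk using Nat.le_induction with
  | base =>
    have h : N / 8 * ((8 + N) ^ 4 - (6 + N) ^ 4) - (4 + N) ^ 4 + 4 ^ 4
        = 94 * N + 52 * N ^ 2 + 5 * N ^ 3 := by ring
    rw [h]
    positivity
  | succ k hk ih =>
    obtain ⟨j, rfl⟩ : ∃ j, k = j + 1 := ⟨k - 1, by omega⟩
    have h4 : (4 : ℝ) ^ j ≤ (4 + N) ^ j := pow_le_pow_left₀ (by norm_num) (by linarith) j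
    have h5 : 0 ≤ 4 * (4 + N) * ((4 + N) ^ j - 4 ^ j) :=
      mul_nonneg (by linarith) (sub_nonneg.mpr h4)
    have h6 : 0 ≤ N / 4 * (6 + N) ^ (j + 1) := by positivity
    have h7 : 0 ≤ (8 + N) * (N / 8 * ((8 + N) ^ (j + 1) - (6 + N) ^ (j + 1))
        - (4 + N) ^ (j + 1) + 4 ^ (j + 1)) := mul_nonneg (by linarith) ih
    have hid : N / 8 * ((8 + N) ^ (j + 1 + 1) - (6 + N) ^ (j + 1 + 1)) - (4 + N) ^ (j + 1 + 1)
          + 4 ^ (j + 1 + 1)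
        = (8 + N) * (N / 8 * ((8 + N) ^ (j + 1) - (6 + N) ^ (j + 1))
            - (4 + N) ^ (j + 1) + 4 ^ (j + 1))
          + 4 * (4 + N) * ((4 + N) ^ j - 4 ^ j) + N / 4 * (6 + N) ^ (j + 1) := by ring
    rw [hid]
    linarith

/-- The odd Taylor coefficients of `D` are nonnegative from the third one on. -/
theorem d_nonneg (k : ℝ) (hk : 0 ≤ k) (n : ℕ) (hn : 3 ≤ n) :
    0 ≤ 1 / 4 * (14 + 4 * k) ^ n - 3 / 4 * (10 + 2 * k) ^ n + 1 / 4 * (6 + 2 * k) ^ n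
      - (2 + 2 * k) ^ n + (1 + k / 2) * 6 ^ n - (3 / 4 + k / 2) * 2 ^ n := by
  induction n, hn using Nat.le_induction with
  | base =>
    have h : 1 / 4 * (14 + 4 * k) ^ 3 - 3 / 4 * (10 + 2 * k) ^ 3 + 1 / 4 * (6 + 2 * k) ^ 3
        - (2 + 2 * k) ^ 3 + (1 + k / 2) * 6 ^ 3 - (3 / 4 + k / 2) * 2 ^ 3
        = 192 + 272 * k + 72 * k ^ 2 + 4 * k ^ 3 := by ring
    rw [h]
    positivity
  | succ n hn ih =>
    obtain ⟨m, rfl⟩ : ∃ m, n = m + 2 := ⟨n - 2, by omega⟩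
    -- first comparison: 4 c^n ≤ a^n
    have hc0 : (0 : ℝ) ≤ (6 + 2 * k) ^ (m + 2) := by positivity
    have h1 : (2 * (6 + 2 * k)) ^ (m + 2) ≤ (14 + 4 * k) ^ (m + 2) :=
      pow_le_pow_left₀ (by linarith) (by linarith) (m + 2)
    have h2 : (4 : ℝ) ≤ 2 ^ (m + 2) := by
      calc (4 : ℝ) = 2 ^ 2 := by norm_num
        _ ≤ 2 ^ (m + 2) := pow_le_pow_right₀ (by norm_num) (by omega)
    have h3 : 4 * (6 + 2 * k) ^ (m + 2) ≤ (14 + 4 * k) ^ (m + 2) := by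
      calc 4 * (6 + 2 * k) ^ (m + 2) ≤ 2 ^ (m + 2) * (6 + 2 * k) ^ (m + 2) :=
            mul_le_mul_of_nonneg_right h2 hc0
        _ = (2 * (6 + 2 * k)) ^ (m + 2) := (mul_pow _ _ _).symm
        _ ≤ (14 + 4 * k) ^ (m + 2) := h1
    -- second comparison
    have h4 : (6 : ℝ) ^ m ≤ (14 + 4 * k) ^ m := pow_le_pow_left₀ (by norm_num) (by linarith) m
    have h5 : 36 * (1 + k / 2) * (4 + 2 * k) ≤ (3 / 4 + k / 2) * (14 + 4 * k) ^ 2 := by
      have : (3 / 4 + k / 2) * (14 + 4 * k) ^ 2 - 36 * (1 + k / 2) * (4 + 2 * k)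
          = 3 + 38 * k + 32 * k ^ 2 + 8 * k ^ 3 := by ring
      have h' : 0 ≤ 3 + 38 * k + 32 * k ^ 2 + 8 * k ^ 3 := by positivity
      linarith
    have h6 : (1 + k / 2) * (4 + 2 * k) * 6 ^ (m + 2)
        ≤ (3 / 4 + k / 2) * (14 + 4 * k) ^ (m + 2) := by
      have e1 : (1 + k / 2) * (4 + 2 * k) * 6 ^ (m + 2)
          = 36 * (1 + k / 2) * (4 + 2 * k) * 6 ^ m := by ring
      have e2 : (3 / 4 + k / 2) * (14 + 4 * k) ^ (m + 2)
          = (3 / 4 + k / 2) * (14 + 4 * k) ^ 2 * (14 + 4 * k) ^ m := by ring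
      rw [e1, e2]
      have hA : 0 ≤ 36 * (1 + k / 2) * (4 + 2 * k) := by positivity
      calc 36 * (1 + k / 2) * (4 + 2 * k) * 6 ^ m
          ≤ 36 * (1 + k / 2) * (4 + 2 * k) * (14 + 4 * k) ^ m :=
            mul_le_mul_of_nonneg_left h4 hA
        _ ≤ (3 / 4 + k / 2) * (14 + 4 * k) ^ 2 * (14 + 4 * k) ^ m :=
            mul_le_mul_of_nonneg_right h5 (by positivity)
    have h7 : (0 : ℝ) ≤ 8 * (2 + 2 * k) ^ (m + 2) := by positivity
    have h8 : (0 : ℝ) ≤ (3 / 4 + k / 2) * (8 + 2 * k) * 2 ^ (m + 2) := by positivity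
    have h9 : 0 ≤ (10 + 2 * k) * (1 / 4 * (14 + 4 * k) ^ (m + 2) - 3 / 4 * (10 + 2 * k) ^ (m + 2)
        + 1 / 4 * (6 + 2 * k) ^ (m + 2) - (2 + 2 * k) ^ (m + 2) + (1 + k / 2) * 6 ^ (m + 2)
        - (3 / 4 + k / 2) * 2 ^ (m + 2)) := mul_nonneg (by linarith) ih
    have hid : 1 / 4 * (14 + 4 * k) ^ (m + 2 + 1) - 3 / 4 * (10 + 2 * k) ^ (m + 2 + 1)
          + 1 / 4 * (6 + 2 * k) ^ (m + 2 + 1) - (2 + 2 * k) ^ (m + 2 + 1)
          + (1 + k / 2) * 6 ^ (m + 2 + 1) - (3 / 4 + k / 2) * 2 ^ (m + 2 + 1)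
        = (10 + 2 * k) * (1 / 4 * (14 + 4 * k) ^ (m + 2) - 3 / 4 * (10 + 2 * k) ^ (m + 2)
            + 1 / 4 * (6 + 2 * k) ^ (m + 2) - (2 + 2 * k) ^ (m + 2) + (1 + k / 2) * 6 ^ (m + 2)
            - (3 / 4 + k / 2) * 2 ^ (m + 2))
          + ((1 + k / 2) * (14 + 4 * k) ^ (m + 2) - (6 + 2 * k) ^ (m + 2)
            + 8 * (2 + 2 * k) ^ (m + 2) - (1 + k / 2) * (4 + 2 * k) * 6 ^ (m + 2)
            + (3 / 4 + k / 2) * (8 + 2 * k) * 2 ^ (m + 2)) := by ring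
    rw [hid]
    have hsplit : (1 + k / 2) * (14 + 4 * k) ^ (m + 2)
        = 1 / 4 * (14 + 4 * k) ^ (m + 2) + (3 / 4 + k / 2) * (14 + 4 * k) ^ (m + 2) := by ring
    linarith

/-- Step 3 series: for `k, t ≥ 0`,
`(1/4) sinh((14+4k)t) - (3/4) sinh((10+2k)t) + (1/4) sinh((6+2k)t) - sinh((2+2k)t)
 + (1+k/2) sinh(6t) - (3/4+k/2) sinh(2t) ≥ 0`. -/
theorem D_nonneg (k t : ℝ) (hk : 0 ≤ k) (ht : 0 ≤ t) :
    0 ≤ 1 / 4 * sinh ((14 + 4 * k) * t) - 3 / 4 * sinh ((10 + 2 * k) * t)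
      + 1 / 4 * sinh ((6 + 2 * k) * t) - sinh ((2 + 2 * k) * t)
      + (1 + k / 2) * sinh (6 * t) - (3 / 4 + k / 2) * sinh (2 * t) := by
  have ha := (Real.hasSum_sinh ((14 + 4 * k) * t)).mul_left (1 / 4)
  have hb := (Real.hasSum_sinh ((10 + 2 * k) * t)).mul_left (3 / 4)
  have hc := (Real.hasSum_sinh ((6 + 2 * k) * t)).mul_left (1 / 4)
  have he := Real.hasSum_sinh ((2 + 2 * k) * t)
  have h6 := (Real.hasSum_sinh (6 * t)).mul_left (1 + k / 2)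
  have h2 := (Real.hasSum_sinh (2 * t)).mul_left (3 / 4 + k / 2)
  have hs := ((((ha.sub hb).add hc).sub he).add h6).sub h2
  refine hs.nonneg (fun n => ?_)
  have key : 1 / 4 * (((14 + 4 * k) * t) ^ (2 * n + 1) / ((2 * n + 1).factorial : ℝ))
        - 3 / 4 * (((10 + 2 * k) * t) ^ (2 * n + 1) / ((2 * n + 1).factorial : ℝ))
        + 1 / 4 * (((6 + 2 * k) * t) ^ (2 * n + 1) / ((2 * n + 1).factorial : ℝ))
        - ((2 + 2 * k) * t) ^ (2 * n + 1) / ((2 * n + 1).factorial : ℝ)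
        + (1 + k / 2) * ((6 * t) ^ (2 * n + 1) / ((2 * n + 1).factorial : ℝ))
        - (3 / 4 + k / 2) * ((2 * t) ^ (2 * n + 1) / ((2 * n + 1).factorial : ℝ))
      = (1 / 4 * (14 + 4 * k) ^ (2 * n + 1) - 3 / 4 * (10 + 2 * k) ^ (2 * n + 1)
          + 1 / 4 * (6 + 2 * k) ^ (2 * n + 1) - (2 + 2 * k) ^ (2 * n + 1)
          + (1 + k / 2) * 6 ^ (2 * n + 1) - (3 / 4 + k / 2) * 2 ^ (2 * n + 1))
        * t ^ (2 * n + 1) / ((2 * n + 1).factorial : ℝ) := by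
    simp only [mul_pow]
    ring
  show 0 ≤ 1 / 4 * (((14 + 4 * k) * t) ^ (2 * n + 1) / ((2 * n + 1).factorial : ℝ))
        - 3 / 4 * (((10 + 2 * k) * t) ^ (2 * n + 1) / ((2 * n + 1).factorial : ℝ))
        + 1 / 4 * (((6 + 2 * k) * t) ^ (2 * n + 1) / ((2 * n + 1).factorial : ℝ))
        - ((2 + 2 * k) * t) ^ (2 * n + 1) / ((2 * n + 1).factorial : ℝ)
        + (1 + k / 2) * ((6 * t) ^ (2 * n + 1) / ((2 * n + 1).factorial : ℝ))
        - (3 / 4 + k / 2) * ((2 * t) ^ (2 * n + 1) / ((2 * n + 1).factorial : ℝ))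
  rw [key]
  rcases Nat.eq_zero_or_pos n with h0 | hpos
  · subst h0
    have hz : (1 / 4 * (14 + 4 * k) ^ (2 * 0 + 1) - 3 / 4 * (10 + 2 * k) ^ (2 * 0 + 1)
          + 1 / 4 * (6 + 2 * k) ^ (2 * 0 + 1) - (2 + 2 * k) ^ (2 * 0 + 1)
          + (1 + k / 2) * 6 ^ (2 * 0 + 1) - (3 / 4 + k / 2) * 2 ^ (2 * 0 + 1)) = 0 := by
      norm_num
      ring
    rw [hz]
    simp
  · exact div_nonneg (mul_nonneg (d_nonneg k hk (2 * n + 1) (by omega)) (pow_nonneg ht _))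
      (by positivity)

/-- Step 4 series: for `N ≥ 0` and every real `m`,
`(N/8)(cosh((8+N)m) - cosh((6+N)m)) - cosh((4+N)m) + cosh(4m) + (N/8)(cosh(2m) - 1)
 + (N(8+N)/16)(cosh(4m) - 2 cosh(2m) + 1) ≥ 0`. -/
theorem E_nonneg (N m : ℝ) (hN : 0 ≤ N) :
    0 ≤ N / 8 * (cosh ((8 + N) * m) - cosh ((6 + N) * m)) - cosh ((4 + N) * m) + cosh (4 * m)
      + N / 8 * (cosh (2 * m) - 1)
      + N * (8 + N) / 16 * (cosh (4 * m) - 2 * cosh (2 * m) + 1) := by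
  have h8 := Real.hasSum_cosh ((8 + N) * m)
  have h6 := Real.hasSum_cosh ((6 + N) * m)
  have h4N := Real.hasSum_cosh ((4 + N) * m)
  have h4 := Real.hasSum_cosh (4 * m)
  have h2 := Real.hasSum_cosh (2 * m)
  have h1 : HasSum (fun n : ℕ => if n = 0 then (1 : ℝ) else 0) 1 := hasSum_ite_eq 0 1
  have hs := (((((h8.sub h6).mul_left (N / 8)).sub h4N).add h4).add
      ((h2.sub h1).mul_left (N / 8))).add
      (((h4.sub (h2.mul_left 2)).add h1).mul_left (N * (8 + N) / 16))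
  refine hs.nonneg (fun n => ?_)
  show 0 ≤ N / 8 * (((8 + N) * m) ^ (2 * n) / ((2 * n).factorial : ℝ)
          - ((6 + N) * m) ^ (2 * n) / ((2 * n).factorial : ℝ))
        - ((4 + N) * m) ^ (2 * n) / ((2 * n).factorial : ℝ)
        + (4 * m) ^ (2 * n) / ((2 * n).factorial : ℝ)
        + N / 8 * ((2 * m) ^ (2 * n) / ((2 * n).factorial : ℝ) - if n = 0 then (1 : ℝ) else 0)
        + N * (8 + N) / 16 * ((4 * m) ^ (2 * n) / ((2 * n).factorial : ℝ)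
            - 2 * ((2 * m) ^ (2 * n) / ((2 * n).factorial : ℝ)) + if n = 0 then (1 : ℝ) else 0)
  rcases Nat.eq_zero_or_pos n with h0 | hpos
  · subst h0
    norm_num
  · rw [if_neg (by omega : ¬ n = 0)]
    have key : N / 8 * (((8 + N) * m) ^ (2 * n) / ((2 * n).factorial : ℝ)
          - ((6 + N) * m) ^ (2 * n) / ((2 * n).factorial : ℝ))
        - ((4 + N) * m) ^ (2 * n) / ((2 * n).factorial : ℝ)
        + (4 * m) ^ (2 * n) / ((2 * n).factorial : ℝ)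
        + N / 8 * ((2 * m) ^ (2 * n) / ((2 * n).factorial : ℝ) - 0)
        + N * (8 + N) / 16 * ((4 * m) ^ (2 * n) / ((2 * n).factorial : ℝ)
            - 2 * ((2 * m) ^ (2 * n) / ((2 * n).factorial : ℝ)) + 0)
        = (N / 8 * ((8 + N) ^ (2 * n) - (6 + N) ^ (2 * n)) - (4 + N) ^ (2 * n) + 4 ^ (2 * n)
            + N / 8 * 2 ^ (2 * n)
            + N * (8 + N) / 16 * (4 ^ (2 * n) - 2 * 2 ^ (2 * n)))
          * m ^ (2 * n) / ((2 * n).factorial : ℝ) := by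
      simp only [mul_pow]
      ring
    rw [key]
    have hm : 0 ≤ m ^ (2 * n) := by
      rw [pow_mul]
      positivity
    refine div_nonneg (mul_nonneg ?_ hm) (by positivity)
    rcases Nat.lt_or_ge n 2 with hlt | hge
    · have hn1 : n = 1 := by omega
      subst hn1
      have hz : N / 8 * ((8 + N) ^ (2 * 1) - (6 + N) ^ (2 * 1)) - (4 + N) ^ (2 * 1)
            + 4 ^ (2 * 1) + N / 8 * 2 ^ (2 * 1)
            + N * (8 + N) / 16 * (4 ^ (2 * 1) - 2 * 2 ^ (2 * 1)) = 0 := by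
        norm_num
        ring
      rw [hz]
    · have hP := P_nonneg N hN (2 * n) (by omega)
      have hx : (2 : ℝ) ≤ 2 ^ (2 * n) := by
        calc (2 : ℝ) = 2 ^ 1 := by norm_num
          _ ≤ 2 ^ (2 * n) := pow_le_pow_right₀ (by norm_num) (by omega)
      have h44 : (4 : ℝ) ^ (2 * n) = 2 ^ (2 * n) * 2 ^ (2 * n) := by
        rw [← mul_pow]
        norm_num
      have hq : 0 ≤ (4 : ℝ) ^ (2 * n) - 2 * 2 ^ (2 * n) := by
        rw [h44]
        nlinarith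
      have hA : 0 ≤ N / 8 * (2 : ℝ) ^ (2 * n) := by positivity
      have hB : 0 ≤ N * (8 + N) / 16 * ((4 : ℝ) ^ (2 * n) - 2 * 2 ^ (2 * n)) :=
        mul_nonneg (by positivity) hq
      linarith

end Vale.Agent.Helper27.WnSeries
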